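import Mathlib

/-! Block matrices over the field with two elements. Block `i` has `2 ^ (i + 2)` indices, so no two
sets of blocks have the same number of indices, and every block has at least four. -/

namespace Vale.Agent.P183.Preorders

open Matrix Finset

/-- Indices: a block and a place in it. -/
abbrev Ix (n : ℕ) := Σ i : Fin n, Fin (2 ^ (i.val + 2))

/-- The scalars. -/
abbrev F2 := ZMod 2

/-- Square matrices on the indices. -/
abbrev Mat (n : ℕ) := Matrix (Ix n) (Ix n) F2

/-- The invertible ones. -/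
abbrev GLn (n : ℕ) := (Mat n)ˣ

variable {n : ℕ}

theorem eq_one_of_ne_zero {x : F2} (h : x ≠ 0) : x = 1 := by revert x; decide

theorem exists_in_block (i : Fin n) (s : Finset (Ix n)) (hs : s.card ≤ 3) :
    ∃ a : Ix n, a.1 = i ∧ a ∉ s := by
  by_contra h
  push Not at h
  let f : Fin (2 ^ (i.val + 2)) → {a : Ix n // a ∈ s} := fun k => ⟨⟨i, k⟩, h ⟨i, k⟩ rfl⟩
  have hf : Function.Injective f := fun k l hkl =>
    eq_of_heq (Sigma.mk.inj_iff.1 (congrArg Subtype.val hkl)).2
  have h1 := Fintype.card_le_of_injective f hf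
  rw [Fintype.card_fin, Fintype.card_coe] at h1
  have h2 : 2 ^ 2 ≤ 2 ^ (i.val + 2) := Nat.pow_le_pow_right (by norm_num) (by omega)
  omega

/-- The number of indices in the blocks of a set determines the set. -/
theorem blocks_inj {U V : Finset (Fin n)}
    (h : (univ.filter fun a : Ix n => a.1 ∈ U).card =
      (univ.filter fun a : Ix n => a.1 ∈ V).card) : U = V := by
  have key : ∀ W : Finset (Fin n), (univ.filter fun a : Ix n => a.1 ∈ W).card =
      4 * ∑ k ∈ W.map Fin.valEmbedding, 2 ^ k := by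
    intro W
    have e : (univ.filter fun a : Ix n => a.1 ∈ W) = W.sigma fun _ => univ := by
      ext a; simp
    rw [e, Finset.card_sigma, Finset.sum_map, Finset.mul_sum]
    refine Finset.sum_congr rfl fun i _ => ?_
    simp [pow_add, mul_comm]
  rw [key, key] at h
  exact Finset.map_injective _ (Finset.geomSum_injective le_rfl
    (Nat.eq_of_mul_eq_mul_left (by norm_num) h))

/-! ### Transvections -/

theorem tv_mul (x φ y : Ix n → F2) (h : φ ⬝ᵥ y = 0) :
    (1 + vecMulVec x φ : Mat n) * (1 + vecMulVec y φ) = 1 + vecMulVec (x + y) φ := by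
  rw [add_vecMulVec, add_mul, one_mul, mul_add, mul_one, vecMulVec_mul_vecMulVec, h]
  simp only [zero_smul, vecMulVec_zero, add_zero]
  abel

theorem tv_mul' (x φ ψ : Ix n → F2) (h : φ ⬝ᵥ x = 0) :
    (1 + vecMulVec x φ : Mat n) * (1 + vecMulVec x ψ) = 1 + vecMulVec x (φ + ψ) := by
  rw [vecMulVec_add, add_mul, one_mul, mul_add, mul_one, vecMulVec_mul_vecMulVec, h]
  simp only [zero_smul, vecMulVec_zero, add_zero]
  abel

theorem tv_sq (x φ : Ix n → F2) (h : φ ⬝ᵥ x = 0) :
    (1 + vecMulVec x φ : Mat n) * (1 + vecMulVec x φ) = 1 := by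
  rw [tv_mul x φ x h]
  have e : x + x = 0 := funext fun i => CharTwo.add_self_eq_zero _
  simp [e]

variable (K : Subgroup (GLn n))

/-- The transvection with the given vector and functional lies in the subgroup. -/
def Tv (x φ : Ix n → F2) : Prop :=
  φ ⬝ᵥ x = 0 ∧ ∃ g ∈ K, (g : Mat n) = 1 + vecMulVec x φ

/-- The standard vector. -/
abbrev unitV (a : Ix n) : Ix n → F2 := Pi.single a 1

variable {K}

theorem Tv.conj {x φ : Ix n → F2} (h : Tv K x φ) {g : GLn n} (hg : g ∈ K) :
    Tv K ((g : Mat n) *ᵥ x) (φ ᵥ* ((g⁻¹ : GLn n) : Mat n)) := by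
  obtain ⟨h0, t, ht, e⟩ := h
  refine ⟨?_, g * t * g⁻¹, K.mul_mem (K.mul_mem hg ht) (K.inv_mem hg), ?_⟩
  · rw [← dotProduct_mulVec, mulVec_mulVec, Units.inv_mul, one_mulVec, h0]
  · rw [Units.val_mul, Units.val_mul, e, mul_add, add_mul, mul_one, Units.mul_inv,
      mul_vecMulVec, vecMulVec_mul]

/-- Composing two transvections. -/
theorem Tv.comp {v ψ x φ : Ix n → F2} (h1 : Tv K v ψ) (h2 : Tv K x φ) (hφv : φ ⬝ᵥ v = 0)
    (hψx : ψ ⬝ᵥ x = 1) : Tv K v φ := by
  obtain ⟨hψv, t, ht, et⟩ := h1
  obtain ⟨hφx, s, hs, es⟩ := h2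
  refine ⟨hφv, t * s * t * s, K.mul_mem (K.mul_mem (K.mul_mem ht hs) ht) hs, ?_⟩
  have e1 : ((t * s * t : GLn n) : Mat n) = 1 + vecMulVec (x + v) φ := by
    rw [Units.val_mul, Units.val_mul, et, es, mul_add (1 + vecMulVec v ψ), mul_one,
      add_mul (1 + vecMulVec v ψ), tv_sq v ψ hψv]
    congr 1
    have hx : (1 + vecMulVec v ψ : Mat n) *ᵥ x = x + v := by
      rw [add_mulVec, one_mulVec, vecMulVec_mulVec, hψx]
      funext i; simp
    have hp : φ ᵥ* (1 + vecMulVec v ψ : Mat n) = φ := by
      rw [vecMul_add, vecMul_one, vecMul_vecMulVec, hφv]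
      funext i; simp
    rw [mul_vecMulVec, vecMulVec_mul, hx, hp]
  rw [Units.val_mul, e1, es, tv_mul _ _ _ hφx]
  congr 2
  funext i
  show x i + v i + x i = v i
  rw [add_comm (x i) (v i), add_assoc, CharTwo.add_self_eq_zero, add_zero]

theorem Tv.zero_left (φ : Ix n → F2) : Tv K 0 φ := ⟨by simp, 1, K.one_mem, by simp⟩

theorem Tv.zero_right (x : Ix n → F2) : Tv K x 0 := ⟨by simp, 1, K.one_mem, by simp⟩

theorem Tv.add_left {x y φ : Ix n → F2} (h1 : Tv K x φ) (h2 : Tv K y φ) : Tv K (x + y) φ := by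
  obtain ⟨a, g, hg, eg⟩ := h1
  obtain ⟨b, k, hk, ek⟩ := h2
  exact ⟨by rw [dotProduct_add, a, b, add_zero], g * k, K.mul_mem hg hk,
    by rw [Units.val_mul, eg, ek, tv_mul _ _ _ b]⟩

theorem Tv.add_right {x φ ψ : Ix n → F2} (h1 : Tv K x φ) (h2 : Tv K x ψ) : Tv K x (φ + ψ) := by
  obtain ⟨a, g, hg, eg⟩ := h1
  obtain ⟨b, k, hk, ek⟩ := h2
  exact ⟨by rw [add_dotProduct, a, b, add_zero], g * k, K.mul_mem hg hk,
    by rw [Units.val_mul, eg, ek, tv_mul' _ _ _ a]⟩

theorem Tv.sum_left {φ : Ix n → F2} (x : Ix n → F2) (h : ∀ i, x i ≠ 0 → Tv K (unitV i) φ) :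
    Tv K x φ := by
  have key : ∀ s : Finset (Ix n), Tv K (fun i => if i ∈ s then x i else 0) φ := by
    intro s
    induction s using Finset.induction_on with
    | empty => exact Tv.zero_left φ
    | @insert a s ha ih =>
      by_cases hx : x a = 0
      · convert ih using 1
        funext i
        by_cases hi : i = a
        · subst hi; simp [ha, hx]
        · simp [hi]
      · convert (h a hx).add_left ih using 1
        funext i
        by_cases hi : i = a
        · subst hi; simp [ha, eq_one_of_ne_zero hx]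
        · simp [hi]
  simpa using key univ

theorem Tv.sum_right {x : Ix n → F2} (φ : Ix n → F2) (h : ∀ i, φ i ≠ 0 → Tv K x (unitV i)) :
    Tv K x φ := by
  have key : ∀ s : Finset (Ix n), Tv K x (fun i => if i ∈ s then φ i else 0) := by
    intro s
    induction s using Finset.induction_on with
    | empty => exact Tv.zero_right x
    | @insert a s ha ih =>
      by_cases hx : φ a = 0
      · convert ih using 1
        funext i
        by_cases hi : i = a
        · subst hi; simp [ha, hx]
        · simp [hi]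
      · convert (h a hx).add_right ih using 1
        funext i
        by_cases hi : i = a
        · subst hi; simp [ha, eq_one_of_ne_zero hx]
        · simp [hi]
  simpa using key univ

end Vale.Agent.P183.Preorders
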