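import Vale.Agent.P183.Defs

/-! The overgroups of a subgroup of a finite group form a congruence lattice: the action on cosets. -/

namespace Vale.Agent.P183.Preorders

theorem of_overgroups {ι : Type*} {R : ι → ι → Prop} {Γ : Type} [Group Γ] [Finite Γ]
    (H : Subgroup Γ) (e : ι ≃ {K : Subgroup Γ // H ≤ K})
    (he : ∀ i j, R i j ↔ (e i).1 ≤ (e j).1) : IsConLattice R := by
  classical
  haveI : Fintype Γ := Fintype.ofFinite Γ
  let g : Fin (Fintype.card Γ) ≃ Γ := (Fintype.equivFin Γ).symm
  let C := {θ : Setoid (Γ ⧸ H) //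
    ∀ (k : Fin (Fintype.card Γ)) (a b : Fin 1 → Γ ⧸ H),
      (∀ l, θ (a l) (b l)) → θ (g k • a 0) (g k • b 0)}
  let toCon : {K : Subgroup Γ // H ≤ K} → C := fun K =>
    ⟨Setoid.ker (Subgroup.quotientMapOfLE K.2), fun k a b hab => by
      obtain ⟨x, hx⟩ := QuotientGroup.mk_surjective (a 0)
      obtain ⟨y, hy⟩ := QuotientGroup.mk_surjective (b 0)
      have hh := hab 0
      rw [← hx, ← hy] at hh ⊢
      rw [Setoid.ker_def, Subgroup.quotientMapOfLE_apply_mk, Subgroup.quotientMapOfLE_apply_mk,
        QuotientGroup.eq] at hh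
      rw [Setoid.ker_def, MulAction.Quotient.smul_mk, MulAction.Quotient.smul_mk,
        Subgroup.quotientMapOfLE_apply_mk, Subgroup.quotientMapOfLE_apply_mk, QuotientGroup.eq]
      simpa [smul_eq_mul, mul_assoc] using hh⟩
  have rel : ∀ (K : {K : Subgroup Γ // H ≤ K}) (x y : Γ),
      (toCon K).1 (QuotientGroup.mk x) (QuotientGroup.mk y) ↔ x⁻¹ * y ∈ K.1 := by
    intro K x y
    change Setoid.ker (Subgroup.quotientMapOfLE K.2) _ _ ↔ _
    rw [Setoid.ker_def, Subgroup.quotientMapOfLE_apply_mk, Subgroup.quotientMapOfLE_apply_mk,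
      QuotientGroup.eq]
  have mono : ∀ K L, (toCon K).1 ≤ (toCon L).1 ↔ K.1 ≤ L.1 := by
    intro K L
    constructor
    · intro h x hx
      have := h ((rel K 1 x).2 (by simpa using hx))
      simpa using (rel L 1 x).1 this
    · intro h a b hab
      obtain ⟨x, rfl⟩ := QuotientGroup.mk_surjective a
      obtain ⟨y, rfl⟩ := QuotientGroup.mk_surjective b
      exact (rel L x y).2 (h ((rel K x y).1 hab))
  have surj : Function.Surjective toCon := by
    intro θ
    have comp : ∀ (c : Γ) (u v : Γ ⧸ H), θ.1 u v → θ.1 (c • u) (c • v) := by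
      intro c u v huv
      have := θ.2 (g.symm c) (fun _ => u) (fun _ => v) (fun _ => huv)
      simpa using this
    let K : Subgroup Γ :=
      { carrier := {x | θ.1 (QuotientGroup.mk 1) (QuotientGroup.mk x)}
        one_mem' := θ.1.refl _
        mul_mem' := fun {a b} ha hb => by
          have := comp a _ _ hb
          simp only [MulAction.Quotient.smul_mk, smul_eq_mul, mul_one] at this
          exact θ.1.trans ha this
        inv_mem' := fun {a} ha => by
          have := comp a⁻¹ _ _ ha
          simp only [MulAction.Quotient.smul_mk, smul_eq_mul, mul_one, inv_mul_cancel] at this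
          exact θ.1.symm this }
    have hHK : H ≤ K := fun x hx => by
      change θ.1 _ _
      rw [show (QuotientGroup.mk x : Γ ⧸ H) = QuotientGroup.mk 1 from
        QuotientGroup.eq.2 (by simpa using H.inv_mem hx)]
    refine ⟨⟨K, hHK⟩, Subtype.ext (Setoid.ext fun a b => ?_)⟩
    obtain ⟨x, rfl⟩ := QuotientGroup.mk_surjective a
    obtain ⟨y, rfl⟩ := QuotientGroup.mk_surjective b
    rw [rel]
    change θ.1 _ _ ↔ _
    constructor
    · intro h
      have := comp x _ _ h
      simpa [MulAction.Quotient.smul_mk, ← mul_assoc] using this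
    · intro h
      have := comp x⁻¹ _ _ h
      simpa [MulAction.Quotient.smul_mk] using this
  have inj : Function.Injective toCon := fun K L h =>
    Subtype.ext (le_antisymm ((mono K L).1 (by rw [h])) ((mono L K).1 (by rw [h])))
  exact ⟨Γ ⧸ H, ⟨QuotientGroup.mk 1⟩, inferInstance, Fintype.card Γ, fun _ => 1,
    fun k a => g k • a 0, e.trans (Equiv.ofBijective toCon ⟨inj, surj⟩),
    fun i j => (he i j).trans (mono _ _).symm⟩

end Vale.Agent.P183.Preorders
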