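import Vale.Agent.P183.Preorders.Blocks

/-! The subgroups containing the block diagonal group are the block groups of preorders. -/

namespace Vale.Agent.P183.Preorders

open Matrix Finset

variable {n : ℕ}

/-- A reflexive transitive relation on the blocks. -/
structure Pre (n : ℕ) where
  /-- The relation. -/
  r : Fin n → Fin n → Prop
  refl : ∀ i, r i i
  trans : ∀ {i j k}, r i j → r j k → r i k

variable (σ : Pre n)

/-- A matrix respects a relation on the blocks. -/
def Supp (A : Mat n) : Prop := ∀ a b, A a b ≠ 0 → σ.r a.1 b.1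

theorem Supp.one : Supp σ (1 : Mat n) := by
  intro a b h
  by_cases e : a = b
  · subst e; exact σ.refl _
  · exact absurd (Matrix.one_apply_ne e) h

theorem Supp.mul {A B : Mat n} (hA : Supp σ A) (hB : Supp σ B) : Supp σ (A * B) := by
  intro a b h
  rw [Matrix.mul_apply] at h
  obtain ⟨c, -, hc⟩ := Finset.exists_ne_zero_of_sum_ne_zero h
  exact σ.trans (hA a c (left_ne_zero_of_mul hc)) (hB c b (right_ne_zero_of_mul hc))

/-- The invertible matrices that respect a relation. -/
def P : Subgroup (GLn n) where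
  carrier := {g | Supp σ (g : Mat n)}
  one_mem' := by simpa using Supp.one σ
  mul_mem' := fun {a b} ha hb => by simpa using Supp.mul σ ha hb
  inv_mem' := fun {g} hg => by
    have hpow : ∀ k : ℕ, Supp σ ((g ^ k : GLn n) : Mat n) := by
      intro k
      induction k with
      | zero => simpa using Supp.one σ
      | succ k ih => rw [pow_succ]; simpa using Supp.mul σ ih hg
    obtain ⟨k, hk⟩ : ∃ k : ℕ, g⁻¹ = g ^ k := by
      refine ⟨orderOf g - 1, inv_eq_of_mul_eq_one_left ?_⟩
      rw [← pow_succ, Nat.sub_add_cancel (orderOf_pos g), pow_orderOf_eq_one]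
    show Supp σ ((g⁻¹ : GLn n) : Mat n)
    rw [hk]
    exact hpow k

theorem mem_P {g : GLn n} : g ∈ P σ ↔ ∀ a b, (g : Mat n) a b ≠ 0 → σ.r a.1 b.1 := Iff.rfl

/-- The transvection of two different indices. -/
def T {a b : Ix n} (h : a ≠ b) : GLn n :=
  ⟨1 + vecMulVec (unitV a) (unitV b), 1 + vecMulVec (unitV a) (unitV b),
    tv_sq _ _ (by simp [unitV, Ne.symm h]), tv_sq _ _ (by simp [unitV, Ne.symm h])⟩

theorem T_mem_P {a b : Ix n} (h : a ≠ b) : T h ∈ P σ ↔ σ.r a.1 b.1 := by
  constructor
  · intro hm
    refine hm a b ?_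
    simp [T, Matrix.one_apply_ne h, vecMulVec_apply]
  · intro hr c e hne
    by_cases hce : c = e
    · subst hce; exact σ.refl _
    · simp [T, Matrix.one_apply_ne hce, vecMulVec_apply, unitV, Pi.single_apply] at hne
      rw [hne.1, hne.2]
      exact hr

theorem Tv_T {K : Subgroup (GLn n)} {a b : Ix n} (h : a ≠ b) :
    Tv K (unitV a) (unitV b) ↔ T h ∈ K := by
  constructor
  · rintro ⟨-, g, hg, e⟩
    rwa [show T h = g from Units.ext e.symm]
  · exact fun hm => ⟨by simp [unitV, Ne.symm h], T h, hm, rfl⟩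

/-- Larger relations give larger groups, and only they. -/
theorem P_le_iff (τ : Pre n) : P σ ≤ P τ ↔ ∀ i j, σ.r i j → τ.r i j := by
  constructor
  · intro h i j hij
    by_cases e : i = j
    · subst e; exact τ.refl _
    · let a : Ix n := ⟨i, ⟨0, Nat.pos_of_ne_zero (by positivity)⟩⟩
      let b : Ix n := ⟨j, ⟨0, Nat.pos_of_ne_zero (by positivity)⟩⟩
      have hab : a ≠ b := fun e' => e (congrArg Sigma.fst e')
      exact (T_mem_P τ hab).1 (h ((T_mem_P σ hab).2 hij))
  · exact fun h g hg a b hne => h _ _ (hg a b hne)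

/-! ### Elimination -/

variable {σ} {K : Subgroup (GLn n)}

/-- If the transvections of a relation lie in a subgroup, so does its whole group. -/
theorem P_le_of_tv (hT : ∀ a b : Ix n, a ≠ b → σ.r a.1 b.1 → Tv K (unitV a) (unitV b)) :
    P σ ≤ K := by
  classical
  suffices H : ∀ (s : Finset (Ix n)) (g : GLn n), g ∈ P σ →
      (∀ a b, a ∉ s ∨ b ∉ s → (g : Mat n) a b = (1 : Mat n) a b) → g ∈ K from
    fun g hg => H univ g hg (by simp)
  intro s
  induction s using Finset.strongInduction with
  | _ s ih =>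
    intro g hg hout
    rcases s.eq_empty_or_nonempty with rfl | hne
    · have : g = 1 := Units.ext (Matrix.ext fun a b => hout a b (Or.inl (by simp)))
      rw [this]; exact K.one_mem
    obtain ⟨a, ha, hmin⟩ : ∃ a ∈ s, ∀ b ∈ s, σ.r b.1 a.1 → σ.r a.1 b.1 := by
      obtain ⟨a, ha, hmin⟩ :=
        s.exists_min_image (fun a => (univ.filter fun i => σ.r i a.1).card) hne
      refine ⟨a, ha, fun b hb hba => ?_⟩
      by_contra hab
      refine absurd (hmin b hb) (not_le.2 (Finset.card_lt_card ?_))
      rw [Finset.ssubset_iff_of_subset fun i hi => by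
        simp only [Finset.mem_filter, Finset.mem_univ, true_and] at hi ⊢
        exact σ.trans hi hba]
      exact ⟨a.1, by simpa using σ.refl _, by simpa using hab⟩
    -- a pivot
    obtain ⟨g1, hg1, hout1, hpiv, hback⟩ : ∃ g1 : GLn n, g1 ∈ P σ ∧
        (∀ x y, x ∉ s ∨ y ∉ s → (g1 : Mat n) x y = (1 : Mat n) x y) ∧
        (g1 : Mat n) a a = 1 ∧ (g1 ∈ K → g ∈ K) := by
      by_cases h0 : (g : Mat n) a a = 0
      swap
      · exact ⟨g, hg, hout, eq_one_of_ne_zero h0, id⟩
      obtain ⟨i, hi⟩ : ∃ i, (g : Mat n) i a ≠ 0 := by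
        by_contra h
        push Not at h
        have h1 : (((g⁻¹ : GLn n) : Mat n) * (g : Mat n)) a a = 0 := by
          rw [Matrix.mul_apply]; simp [h]
        rw [Units.inv_mul] at h1
        simp at h1
      have his : i ∈ s := by
        by_contra his
        rw [hout i a (Or.inl his)] at hi
        exact hi (Matrix.one_apply_ne fun e => his (e ▸ ha))
      have hai : a ≠ i := fun e => hi (e ▸ h0)
      have hr : σ.r a.1 i.1 := hmin i his (hg i a hi)
      refine ⟨T hai * g, (P σ).mul_mem ((T_mem_P σ hai).2 hr) hg, ?_, ?_, fun h => ?_⟩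
      · intro x y hxy
        have : ((T hai * g : GLn n) : Mat n) x y =
            (g : Mat n) x y + unitV a x * (g : Mat n) i y := by
          simp [T, add_mul, vecMulVec_mul, vecMulVec_apply, vecMul, dotProduct, unitV,
            Pi.single_apply]
        rw [this, hout x y hxy]
        by_cases hx : x = a
        · subst hx
          have hy : y ∉ s := hxy.resolve_left (by simpa using ha)
          rw [hout i y (Or.inr hy), Matrix.one_apply_ne fun e : i = y => hy (e ▸ his)]
          simp
        · simp [unitV, hx]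
      · simp [T, add_mul, vecMulVec_mul, vecMulVec_apply, vecMul, dotProduct, unitV,
          Pi.single_apply, h0, eq_one_of_ne_zero hi]
      · have := K.mul_mem (K.inv_mem ((Tv_T hai).1 (hT a i hai hr))) h
        rwa [inv_mul_cancel_left] at this
    -- clear the column and the row
    let c : Ix n → F2 := fun i => (g1 : Mat n) i a + unitV a i
    let d : Ix n → F2 := fun i => (g1 : Mat n) a i + unitV a i
    have hc : Tv K c (unitV a) := Tv.sum_left c fun i hi => by
      have hia : i ≠ a := fun e => hi (by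
        simp only [c, e, hpiv, unitV, Pi.single_eq_same]; decide)
      refine hT i a hia (hg1 i a fun h => hi ?_)
      simp [c, h, unitV, hia]
    have hd : Tv K (unitV a) d := Tv.sum_right d fun i hi => by
      have hia : i ≠ a := fun e => hi (by
        simp only [d, e, hpiv, unitV, Pi.single_eq_same]; decide)
      refine hT a i (Ne.symm hia) (hg1 a i fun h => hi ?_)
      simp [d, h, unitV, hia]
    obtain ⟨-, u, hu, eu⟩ := hc
    obtain ⟨-, w, hw, ew⟩ := hd
    have e1 : ∀ x y, ((u * g1 : GLn n) : Mat n) x y =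
        (g1 : Mat n) x y + c x * (g1 : Mat n) a y := fun x y => by
      simp [eu, add_mul, vecMulVec_mul, vecMulVec_apply, vecMul, dotProduct, unitV,
        Pi.single_apply]
    have e2 : ∀ x y, ((u * g1 * w : GLn n) : Mat n) x y =
        ((u * g1 : GLn n) : Mat n) x y + ((u * g1 : GLn n) : Mat n) x a * d y := fun x y => by
      rw [Units.val_mul, ew, mul_add, mul_one, Matrix.add_apply, mul_vecMulVec, vecMulVec_apply]
      simp [unitV]
    have hcol : ∀ x, ((u * g1 : GLn n) : Mat n) x a = (1 : Mat n) x a := fun x => by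
      rw [e1, hpiv, mul_one]
      simp only [c]
      rw [← add_assoc, CharTwo.add_self_eq_zero, zero_add, Matrix.one_apply]
      simp [unitV, Pi.single_apply]
    have hmid : (u * g1 * w : GLn n) ∈ K := by
      refine ih (s.erase a) (Finset.erase_ssubset ha) _ ?_ ?_
      · refine (P σ).mul_mem ((P σ).mul_mem ?_ hg1) ?_
        · intro x y hne
          rw [eu] at hne
          by_cases hxy : x = y
          · subst hxy; exact σ.refl _
          · simp [Matrix.one_apply_ne hxy, vecMulVec_apply, unitV, Pi.single_apply] at hne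
            obtain ⟨rfl, hcx⟩ := hne
            refine hg1 x y fun h => hcx ?_
            simp [c, h, unitV, hxy]
        · intro x y hne
          rw [ew] at hne
          by_cases hxy : x = y
          · subst hxy; exact σ.refl _
          · simp [Matrix.one_apply_ne hxy, vecMulVec_apply, unitV, Pi.single_apply] at hne
            obtain ⟨rfl, hdy⟩ := hne
            refine hg1 x y fun h => hdy ?_
            simp [d, h, unitV, Ne.symm hxy]
      · intro x y hxy
        rw [e2, hcol]
        have hrow : ((u * g1 : GLn n) : Mat n) a y = (g1 : Mat n) a y := by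
          rw [e1]
          simp [c, hpiv, unitV, CharTwo.add_self_eq_zero]
        by_cases hxa : x = a
        · subst hxa
          rw [hrow, Matrix.one_apply_eq, one_mul]
          simp only [d]
          rw [← add_assoc, CharTwo.add_self_eq_zero, zero_add, Matrix.one_apply]
          simp [unitV, Pi.single_apply, eq_comm]
        rw [Matrix.one_apply_ne hxa, zero_mul, add_zero]
        by_cases hya : y = a
        · rw [hya, hcol]
        have hmem : x ∉ s ∨ y ∉ s := by
          simpa [Finset.mem_erase, hxa, hya] using hxy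
        rw [e1, hout1 x y hmem]
        suffices c x * (g1 : Mat n) a y = 0 by rw [this, add_zero]
        rcases hmem with hx | hy
        · simp [c, hout1 x a (Or.inl hx), hxa, unitV]
        · simp [hout1 a y (Or.inr hy), Ne.symm hya]
    refine hback ?_
    have := K.mul_mem (K.mul_mem (K.inv_mem hu) hmid) (K.inv_mem hw)
    rwa [← mul_assoc, ← mul_assoc, inv_mul_cancel, one_mul, mul_inv_cancel_right] at this

/-! ### Overgroups -/

/-- The discrete relation. -/
def diag (n : ℕ) : Pre n := ⟨Eq, fun _ => rfl, fun h h' => h.trans h'⟩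

variable (hK : P (diag n) ≤ K)
include hK

theorem tv_block {a b : Ix n} (h : a ≠ b) (e : a.1 = b.1) : Tv K (unitV a) (unitV b) :=
  (Tv_T h).2 (hK ((T_mem_P _ h).2 e))

/-- A transvection touching two blocks gives all transvections between them. -/
theorem tv_all {x φ : Ix n → F2} (h : Tv K x φ) {c b : Ix n} (hc : x c ≠ 0) (hb : φ b ≠ 0)
    (hne : c.1 ≠ b.1) {a a' : Ix n} (ha : a.1 = c.1) (ha' : a'.1 = b.1) :
    Tv K (unitV a) (unitV a') := by
  obtain ⟨p, hp, hpc⟩ := exists_in_block c.1 {c} (by simp)
  obtain ⟨q, hq, hqc⟩ := exists_in_block c.1 {c, p} (Finset.card_le_two.trans (by norm_num))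
  simp only [Finset.mem_insert, Finset.mem_singleton, not_or] at hpc hqc
  obtain ⟨v, hv, hva, hvb, w, hwv, hwc⟩ :
      ∃ v : Ix n → F2, φ ⬝ᵥ v = 0 ∧ Tv K v (unitV c) ∧
        (∀ i, v i ≠ 0 → i.1 = c.1) ∧ ∃ w, v w ≠ 0 ∧ w.1 = c.1 := by
    by_cases h1 : φ p = 0
    · exact ⟨unitV p, by simp [unitV, h1], tv_block hK hpc hp,
        fun i hi => by simp [unitV, Pi.single_apply] at hi; rw [hi, hp],
        p, by simp [unitV], hp⟩
    by_cases h2 : φ q = 0
    · exact ⟨unitV q, by simp [unitV, h2], tv_block hK hqc.1 hq,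
        fun i hi => by simp [unitV, Pi.single_apply] at hi; rw [hi, hq],
        q, by simp [unitV], hq⟩
    refine ⟨unitV p + unitV q, ?_, (tv_block hK hpc hp).add_left (tv_block hK hqc.1 hq),
      fun i hi => ?_, p, ?_, hp⟩
    · rw [dotProduct_add]
      simp [unitV, eq_one_of_ne_zero h1, eq_one_of_ne_zero h2, CharTwo.add_self_eq_zero]
    · by_cases e1 : i = p
      · rw [e1, hp]
      · by_cases e2 : i = q
        · rw [e2, hq]
        · simp [unitV, e1, e2] at hi
    · simp [unitV, Ne.symm hqc.2]
  have h1 : Tv K v φ := Tv.comp hva h hv (by simp [unitV, eq_one_of_ne_zero hc])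
  have vzero : ∀ q : Ix n, q.1 = b.1 → v q = 0 := fun q hq' =>
    not_not.1 fun h' => hne ((hvb q h').symm.trans hq')
  have h2 : ∀ q : Ix n, q.1 = b.1 → q ≠ b → Tv K v (unitV q) := fun q hq' hqb =>
    Tv.comp h1 (tv_block hK (Ne.symm hqb) hq'.symm) (by simp [unitV, vzero q hq'])
      (by simp [unitV, eq_one_of_ne_zero hb])
  obtain ⟨b', hb', hbb⟩ := exists_in_block b.1 {b} (by simp)
  simp only [Finset.mem_singleton] at hbb
  have h3 : ∀ q : Ix n, q.1 = b.1 → Tv K v (unitV q) := fun q hq' => by
    by_cases hqb : q = b'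
    · subst hqb; exact h2 q hb' hbb
    exact Tv.comp (h2 b' hb' hbb) (tv_block hK (Ne.symm hqb) (hb'.trans hq'.symm))
      (by simp [unitV, vzero q hq']) (by simp [unitV])
  have h4 : ∀ i : Ix n, i.1 = c.1 → i ≠ w → ∀ q : Ix n, q.1 = b.1 →
      Tv K (unitV i) (unitV q) := fun i hi hiw q hq' =>
    Tv.comp (tv_block hK hiw (hi.trans hwc.symm)) (h3 q hq')
      (by simp [unitV, show q ≠ i from fun e => hne (by rw [← hi, ← e, hq'])])
      (by simp [unitV, eq_one_of_ne_zero hwv])
  by_cases haw : a = w
  · subst haw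
    obtain ⟨a1, ha1, hne1⟩ := exists_in_block c.1 {a} (by simp)
    simp only [Finset.mem_singleton] at hne1
    exact Tv.comp (tv_block hK (Ne.symm hne1) (ha.trans ha1.symm)) (h4 a1 ha1 hne1 a' ha')
      (by simp [unitV, show a' ≠ a from fun e => hne (by rw [← ha, ← e, ha'])])
      (by simp [unitV])
  · exact h4 a ha haw a' ha'

omit hK in
/-- The relation of the transvections in a subgroup. -/
def arcs (K : Subgroup (GLn n)) (i j : Fin n) : Prop :=
  ∀ a b : Ix n, a.1 = i → b.1 = j → a ≠ b → Tv K (unitV a) (unitV b)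

/-- The preorder of an overgroup. -/
def preOf : Pre n where
  r := arcs K
  refl i a b ha hb hne := tv_block hK hne (ha.trans hb.symm)
  trans {i j k} hij hjk a c ha hc hac := by
    obtain ⟨b, hb, hbn⟩ := exists_in_block j {a, c} (Finset.card_le_two.trans (by norm_num))
    simp only [Finset.mem_insert, Finset.mem_singleton, not_or] at hbn
    exact Tv.comp (hij a b ha hb (Ne.symm hbn.1)) (hjk b c hb hc hbn.2)
      (by simp [unitV, Ne.symm hac]) (by simp [unitV])

/-- Where an element sends a block, and where its inverse comes from, are related. -/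
theorem arcs_of_entries {g : GLn n} (hg : g ∈ K) {a k k' l : Ix n}
    (h1 : (g : Mat n) a k ≠ 0) (h2 : ((g⁻¹ : GLn n) : Mat n) k' l ≠ 0) (hk : k.1 = k'.1) :
    arcs K a.1 l.1 := by
  by_cases hal : a.1 = l.1
  · exact fun p q hp hq hne => tv_block hK hne ((hp.trans hal).trans hq.symm)
  suffices ∃ v ψ : Ix n → F2, Tv K v ψ ∧ ((g : Mat n) *ᵥ v) a ≠ 0 ∧
      (ψ ᵥ* ((g⁻¹ : GLn n) : Mat n)) l ≠ 0 by
    obtain ⟨v, ψ, ht, hx, hφ⟩ := this
    exact fun p q hp hq _ => tv_all hK (ht.conj hg) hx hφ hal hp hq
  by_cases hkk : k = k'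
  swap
  · exact ⟨_, _, tv_block hK hkk hk, by simpa [unitV] using h1, by simpa [unitV] using h2⟩
  subst hkk
  by_cases hm : ∃ m, m.1 = k.1 ∧ m ≠ k ∧ (g : Mat n) a m ≠ 0
  · obtain ⟨m, hm1, hm2, hm3⟩ := hm
    exact ⟨_, _, tv_block hK hm2 hm1, by simpa [unitV] using hm3, by simpa [unitV] using h2⟩
  by_cases hm' : ∃ m, m.1 = k.1 ∧ m ≠ k ∧ ((g⁻¹ : GLn n) : Mat n) m l ≠ 0
  · obtain ⟨m, hm1, hm2, hm3⟩ := hm'
    exact ⟨_, _, tv_block hK (Ne.symm hm2) hm1.symm, by simpa [unitV] using h1,
      by simpa [unitV] using hm3⟩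
  push Not at hm hm'
  obtain ⟨m, hm1, hm2⟩ := exists_in_block k.1 {k} (by simp)
  simp only [Finset.mem_singleton] at hm2
  obtain ⟨p, hp1, hp2⟩ := exists_in_block k.1 {k, m} (Finset.card_le_two.trans (by norm_num))
  simp only [Finset.mem_insert, Finset.mem_singleton, not_or] at hp2
  have e1 := (tv_block hK (Ne.symm hp2.1) hp1.symm).add_left
    (tv_block hK (Ne.symm hp2.2) (hm1.trans hp1.symm))
  have e2 := (tv_block hK hp2.1 hp1).add_right (tv_block hK hp2.2 (hp1.trans hm1.symm))
  refine ⟨unitV k + unitV m, unitV k + unitV m, Tv.comp e1 e2 ?_ (by simp [unitV]), ?_, ?_⟩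
  · simp [unitV, dotProduct_add, add_dotProduct, hm2, Ne.symm hm2, CharTwo.add_self_eq_zero]
  · simpa [unitV, Matrix.mulVec_add, hm m hm1 hm2] using h1
  · have e3 := hm' m hm1 hm2
    simpa [unitV, Matrix.add_vecMul, e3, -Matrix.coe_units_inv] using h2

/-- Every overgroup of the block diagonal group is the group of a preorder. -/
theorem eq_P : K = P (preOf hK) := by
  classical
  refine le_antisymm (fun g hg => ?_)
    (P_le_of_tv fun a b hne hr => hr a b rfl rfl hne)
  intro a c hac
  let U : Finset (Fin n) := univ.filter fun i => (preOf hK).r i c.1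
  let U' : Finset (Fin n) := univ.filter fun k =>
    ∀ x y : Ix n, y.1 = k → (g : Mat n) x y ≠ 0 → x.1 ∈ U
  have hin : ∀ x y : Ix n, x.1 ∉ U → y.1 ∈ U' → (g : Mat n) x y = 0 := fun x y hx hy => by
    simp only [U', Finset.mem_filter, Finset.mem_univ, true_and] at hy
    exact not_not.1 fun h => hx (hy x y rfl h)
  have hinv : ∀ x y : Ix n, x.1 ∉ U' → y.1 ∈ U → ((g⁻¹ : GLn n) : Mat n) x y = 0 := by
    intro x y hx hy
    simp only [U', Finset.mem_filter, Finset.mem_univ, true_and] at hx
    push Not at hx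
    obtain ⟨p, q, hq, hne, hp⟩ := hx
    by_contra hne'
    simp only [U, Finset.mem_filter, Finset.mem_univ, true_and] at hp hy
    exact hp ((preOf hK).trans (arcs_of_entries hK hg hne hne' hq) hy)
  have hUU : U' = U := by
    let sub : Finset (Fin n) → Type := fun W =>
      {v : Ix n → F2 // ∀ i : Ix n, i.1 ∉ W → v i = 0}
    let f : sub U' → sub U := fun v => ⟨(g : Mat n) *ᵥ v.1, fun i hi =>
      Finset.sum_eq_zero fun j _ => by
        by_cases hj : j.1 ∈ U'
        · simp [hin i j hi hj]
        · simp [v.2 j hj]⟩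
    let f' : sub U → sub U' := fun v => ⟨((g⁻¹ : GLn n) : Mat n) *ᵥ v.1, fun i hi =>
      Finset.sum_eq_zero fun j _ => by
        by_cases hj : j.1 ∈ U
        · simp [hinv i j hi hj]
        · simp [v.2 j hj]⟩
    let e : sub U' ≃ sub U := ⟨f, f',
      fun v => Subtype.ext (by simp [f, f', mulVec_mulVec, Units.inv_mul]),
      fun v => Subtype.ext (by simp [f, f', mulVec_mulVec, Units.mul_inv])⟩
    have hcard : ∀ W : Finset (Fin n),
        Nat.card (sub W) = 2 ^ (univ.filter fun i : Ix n => i.1 ∈ W).card := by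
      intro W
      let ee : sub W ≃ ({i : Ix n // i.1 ∈ W} → F2) :=
        { toFun := fun v i => v.1 i.1
          invFun := fun h => ⟨fun i => if hi : i.1 ∈ W then h ⟨i, hi⟩ else 0,
            fun i hi => dif_neg hi⟩
          left_inv := fun v => Subtype.ext (funext fun i => by
            by_cases hi : i.1 ∈ W
            · simp [hi]
            · simp [hi, v.2 i hi])
          right_inv := fun h => funext fun i => by simp [i.2] }
      rw [Nat.card_congr ee, Nat.card_fun, Nat.card_zmod, Nat.card_eq_fintype_card,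
        Fintype.card_subtype]
    refine blocks_inj (Nat.pow_right_injective le_rfl ?_)
    show 2 ^ _ = 2 ^ _
    rw [← hcard, ← hcard]
    exact Nat.card_congr e
  have hcU : c.1 ∈ U' := by rw [hUU]; simp [U, (preOf hK).refl]
  have haU : a.1 ∈ U := not_not.1 fun h => hac (hin a c h hcU)
  simpa [U] using haU

end Vale.Agent.P183.Preorders
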