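import Vale.Agent.P183.Preorders.Interval
import Vale.Agent.P183.Preorders.Overgroups

/-! Intervals in the lattice of all preorders on a finite set are congruence lattices. -/

namespace Vale.Agent.P183.Preorders

/-- The preorders between two given ones on the blocks. -/
theorem isConLattice_fin {n : ℕ} (σ₀ σ₁ : Pre n) (h01 : ∀ i j, σ₀.r i j → σ₁.r i j) :
    IsConLattice (fun r s : {r : Fin n → Fin n → Prop // (∀ i, r i i) ∧
      (∀ i j k, r i j → r j k → r i k) ∧ σ₀.r ≤ r ∧ r ≤ σ₁.r} => r.1 ≤ s.1) := by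
  let Γ := P σ₁
  let H : Subgroup Γ := (P σ₀).subgroupOf Γ
  let S := {r : Fin n → Fin n → Prop // (∀ i, r i i) ∧
      (∀ i j k, r i j → r j k → r i k) ∧ σ₀.r ≤ r ∧ r ≤ σ₁.r}
  let toPre : S → Pre n := fun r => ⟨r.1, r.2.1, fun {i j k} => r.2.2.1 i j k⟩
  let f : S → {K : Subgroup Γ // H ≤ K} := fun r =>
    ⟨(P (toPre r)).subgroupOf Γ,
      fun x hx => (P_le_iff σ₀ (toPre r)).2 r.2.2.2.1 hx⟩
  have mono : ∀ r s : S, (f r).1 ≤ (f s).1 ↔ r.1 ≤ s.1 := by
    intro r s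
    constructor
    · intro h
      refine (P_le_iff (toPre r) (toPre s)).1 fun g hg => ?_
      exact h (x := ⟨g, (P_le_iff (toPre r) σ₁).2 r.2.2.2.2 hg⟩) hg
    · exact fun h x hx => (P_le_iff (toPre r) (toPre s)).2 h hx
  have hinj : Function.Injective f := fun r s h =>
    Subtype.ext (le_antisymm ((mono r s).1 (by rw [h])) ((mono s r).1 (by rw [h])))
  have hsurj : Function.Surjective f := by
    rintro ⟨K, hK⟩
    let K' := K.map Γ.subtype
    have h0 : P σ₀ ≤ K' := fun g hg =>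
      ⟨⟨g, (P_le_iff σ₀ σ₁).2 h01 hg⟩, hK hg, rfl⟩
    have hd : P (diag n) ≤ K' := le_trans ((P_le_iff _ _).2 fun i j h => by
      have h' : i = j := h
      subst h'
      exact σ₀.refl i) h0
    have hle : K' ≤ P σ₁ := by
      rintro _ ⟨g, -, rfl⟩
      exact g.2
    let τ := preOf hd
    have hτ : K' = P τ := eq_P hd
    rw [hτ] at h0 hle
    refine ⟨⟨τ.r, τ.refl, fun i j k => τ.trans, (P_le_iff _ _).1 h0, (P_le_iff _ _).1 hle⟩,
      Subtype.ext ?_⟩
    ext g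
    show g.1 ∈ P τ ↔ g ∈ K
    rw [← hτ]
    exact ⟨fun ⟨x, hx, e⟩ => by rwa [← Subtype.ext e], fun h => ⟨g, h, rfl⟩⟩
  exact of_overgroups H (Equiv.ofBijective f ⟨hinj, hsurj⟩) fun r s => (mono r s).symm

/-- The preorders between two given ones on a finite set. -/
theorem isConLattice_preorders {α : Type} [Finite α] (r₀ r₁ : α → α → Prop)
    (h0 : (∀ a, r₀ a a) ∧ ∀ a b c, r₀ a b → r₀ b c → r₀ a c)
    (h1 : (∀ a, r₁ a a) ∧ ∀ a b c, r₁ a b → r₁ b c → r₁ a c) (h01 : r₀ ≤ r₁) :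
    IsConLattice (fun r s : {r : α → α → Prop // (∀ a, r a a) ∧
      (∀ a b c, r a b → r b c → r a c) ∧ r₀ ≤ r ∧ r ≤ r₁} => r.1 ≤ s.1) := by
  let e := Finite.equivFin α
  let σ₀ : Pre (Nat.card α) := ⟨fun i j => r₀ (e.symm i) (e.symm j), fun i => h0.1 _,
    fun {i j k} => h0.2 _ _ _⟩
  let σ₁ : Pre (Nat.card α) := ⟨fun i j => r₁ (e.symm i) (e.symm j), fun i => h1.1 _,
    fun {i j k} => h1.2 _ _ _⟩
  refine (isConLattice_fin σ₀ σ₁ fun i j => h01 _ _).congr
    { toFun := fun r => ⟨fun i j => r.1 (e.symm i) (e.symm j), fun i => r.2.1 _,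
        fun i j k => r.2.2.1 _ _ _, fun i j => r.2.2.2.1 _ _, fun i j => r.2.2.2.2 _ _⟩
      invFun := fun r => ⟨fun a b => r.1 (e a) (e b), fun a => r.2.1 _,
        fun a b c => r.2.2.1 _ _ _,
        fun a b h => r.2.2.2.1 (e a) (e b) (by simpa [σ₀] using h),
        fun a b h => by simpa [σ₁] using r.2.2.2.2 (e a) (e b) h⟩
      left_inv := fun r => Subtype.ext (by funext a b; simp)
      right_inv := fun r => Subtype.ext (by funext i j; simp) } fun r s => ?_
  exact ⟨fun h i j => h _ _, fun h a b => by simpa using h (e a) (e b)⟩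

end Vale.Agent.P183.Preorders
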